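import Vale.Agent.Lib.P090.Assembly
import Vale.Agent.Lib.P090.Kazhdan

/-!
# A uniformly discrete metric space whose Lipschitz-free space fails the BAP.

Outline of the proof (all in `Vale/Agent/Lib/P090/`).  `M` is a disjoint union of bounded pieces.
A piece consists of hubs and of a bundle `V × Y`, where `V` is a finite group containing two copies
of `SL₃(𝔽_p)` with no short relations between them, `Y` is a chain of components identified with
`SL₃(𝔽_{q_k})`, sheets over `V` are `2ρ`-separated and each point is at distance `ρ` from the hubs
(a `2ρ`-separated net of `V`).  A finite-rank operator gives finitely supported coefficients with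
small gradient (`ρ` large against its norm); the uniform spectral gap of `SL₃(ℤ/pqr)` forces these
coefficients to be almost constant on components, and the chain structure then forces the total
mass to vanish, while the approximation of the identity on the hubs forces it to be at least `1/2`.
-/

namespace Vale.Agent.Results.P090.A_fails_BAP

open Vale.Agent.Lib.P090

/-- There is a countable uniformly discrete metric space whose Lipschitz-free space fails the
bounded approximation property. -/
theorem result : ∃ (M : Type) (_ : MetricSpace M) (o : M), Countable M ∧
    (∃ θ : ℝ, 0 < θ ∧ ∀ x y : M, x ≠ y → θ ≤ dist x y) ∧ ¬ HasBAP (freeSpace M o) := by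
  obtain ⟨K, hK0, hK⟩ := kazhdan_l1
  exact main_of_kazhdan hK0 hK

end Vale.Agent.Results.P090.A_fails_BAP
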